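import Mathlib
import Vale.Agent.P092.H132.Right
import Vale.Agent.P092.H732.Q

/-!
P092 (helper732), block Q of helper553's plan: exact properties of `NS`, Lipschitz dependence under
left translations and the transvection bound.
-/

namespace Vale.Agent.P092.H732

open Vale.Agent.P092.H553 Vale.Agent.P092.H132 Matrix Filter Topology


lemma NS_apply (g : G3) (i j : Fin 3) :
    NS g i j = (rB g)⁻¹ * ∑ k, rm g⁻¹ k i * rm g⁻¹ k j := by
  simp only [NS, Matrix.smul_apply, smul_eq_mul, Matrix.mul_apply, Matrix.transpose_apply]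

lemma NS_symm (g : G3) (i j : Fin 3) : NS g i j = NS g j i := by
  rw [NS_apply, NS_apply]
  congr 1
  exact Finset.sum_congr rfl fun k _ => mul_comm _ _

lemma NS_diag (g : G3) (i : Fin 3) : NS g i i = (rB g)⁻¹ * ∑ k, rm g⁻¹ k i ^ 2 := by
  rw [NS_apply]
  congr 1
  exact Finset.sum_congr rfl fun k _ => by ring

lemma NS_diag_nonneg (g : G3) (i : Fin 3) : 0 ≤ NS g i i := by
  rw [NS_diag]
  exact mul_nonneg (inv_nonneg.2 (rB_pos g).le) (Finset.sum_nonneg fun _ _ => sq_nonneg _)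

lemma NS_trace (g : G3) : ∑ i, NS g i i = 1 := by
  have hB := rB_pos g
  have h : ∑ i, NS g i i = (rB g)⁻¹ * rB g := by
    rw [show rB g = ∑ i, ∑ k, rm g⁻¹ k i ^ 2 by rw [Finset.sum_comm]; rfl, Finset.mul_sum]
    refine Finset.sum_congr rfl fun i _ => ?_
    rw [NS_diag]
    rw [show rB g = ∑ i, ∑ k, rm g⁻¹ k i ^ 2 by rw [Finset.sum_comm]; rfl]
  rw [h, inv_mul_cancel₀ hB.ne']

lemma NS_diag_le_one (g : G3) (i : Fin 3) : NS g i i ≤ 1 := by
  rw [← NS_trace g]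
  exact Finset.single_le_sum (f := fun i => NS g i i) (fun j _ => NS_diag_nonneg g j)
    (Finset.mem_univ i)

lemma abs_NS_le_one (g : G3) (i j : Fin 3) : |NS g i j| ≤ 1 := by
  have h := (sq_entry_le (NS g) i j).trans (hs_NS_le g)
  exact abs_le_one_iff_mul_self_le_one.2 (by nlinarith)

/-- The trace of the twisted form. -/
noncomputable def tw (s : G3) (N : M3) : ℝ := ((rm s⁻¹)ᵀ * N * rm s⁻¹).trace

lemma tw_NS (s g : G3) : tw s (NS g) = rB (s * g) / rB g := by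
  have h1 := NS_mul s g
  have hB := rB_pos g
  have hB' := rB_pos (s * g)
  have h2 : (NS (s * g)).trace = 1 := NS_trace (s * g)
  rw [h1, Matrix.trace_smul, smul_eq_mul] at h2
  rw [tw, eq_div_iff hB.ne']
  have h3 : rB (s * g) * (rB g / rB (s * g) * ((rm s⁻¹)ᵀ * NS g * rm s⁻¹).trace)
      = rB (s * g) * 1 := by rw [h2]
  rw [← mul_assoc, mul_div_cancel₀ _ hB'.ne'] at h3
  linarith

/-- Exact left equivariance of `N*`. -/
theorem NS_equivariant (s g : G3) :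
    NS (s * g) = (tw s (NS g))⁻¹ • ((rm s⁻¹)ᵀ * NS g * rm s⁻¹) := by
  rw [tw_NS, inv_div]
  exact NS_mul s g

lemma tw_NS_ge (s g : G3) : (rA s)⁻¹ ≤ tw s (NS g) := by
  have hB := rB_pos g
  have hA := rA_pos s
  rw [tw_NS, inv_eq_one_div, div_le_div_iff₀ hA hB, one_mul]
  have := rA_mul_le (s * g)⁻¹ s
  rwa [show (s * g)⁻¹ * s = g⁻¹ by group, rA_inv, rA_inv] at this

lemma tw_sub (s : G3) (M N : M3) : tw s M - tw s N = tw s (M - N) := by
  rw [tw, tw, tw, ← Matrix.trace_sub]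
  congr 1
  rw [Matrix.mul_sub, Matrix.sub_mul]

lemma tw_sq_le (s : G3) (N : M3) : tw s N ^ 2 ≤ rB s ^ 2 * hs N := by
  have h1 : tw s N = ∑ i, ∑ j, N i j * ((rm s⁻¹) * (rm s⁻¹)ᵀ) i j := by
    simp only [tw, Matrix.trace, Matrix.diag_apply, Matrix.mul_apply, Matrix.transpose_apply,
      Fin.sum_univ_three]
    ring
  have h2 : (∑ i, ∑ j, N i j * ((rm s⁻¹) * (rm s⁻¹)ᵀ) i j) ^ 2 ≤
      hs N * hs ((rm s⁻¹) * (rm s⁻¹)ᵀ) := by
    have e1 : ∑ i, ∑ j, N i j * ((rm s⁻¹) * (rm s⁻¹)ᵀ) i j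
        = ∑ x : Fin 3 × Fin 3, N x.1 x.2 * ((rm s⁻¹) * (rm s⁻¹)ᵀ) x.1 x.2 := by
      rw [Fintype.sum_prod_type]
    have e2 : ∀ m : M3, hs m = ∑ x : Fin 3 × Fin 3, m x.1 x.2 ^ 2 := by
      intro m; rw [Fintype.sum_prod_type]; rfl
    rw [e1, e2, e2]
    exact Finset.sum_mul_sq_le_sq_mul_sq _ _ _
  have h3 : hs ((rm s⁻¹) * (rm s⁻¹)ᵀ) ≤ rB s ^ 2 := by
    have := hs_mul_le (rm s⁻¹) (rm s⁻¹)ᵀ
    rw [hs_transpose] at this
    have e : hs (rm s⁻¹) = rB s := rfl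
    rw [e] at this
    rw [sq]; exact this
  rw [h1]
  calc _ ≤ hs N * hs ((rm s⁻¹) * (rm s⁻¹)ᵀ) := h2
    _ ≤ hs N * rB s ^ 2 := mul_le_mul_of_nonneg_left h3 (hs_nonneg _)
    _ = _ := mul_comm _ _

lemma hs_conj_le (s : G3) (N : M3) : hs ((rm s⁻¹)ᵀ * N * rm s⁻¹) ≤ rB s ^ 2 * hs N := by
  have h1 := hs_mul_le ((rm s⁻¹)ᵀ * N) (rm s⁻¹)
  have h2 := hs_mul_le (rm s⁻¹)ᵀ N
  rw [hs_transpose] at h2
  have e : hs (rm s⁻¹) = rB s := rfl
  rw [e] at h1 h2
  have hB := rB_pos s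
  calc _ ≤ hs ((rm s⁻¹)ᵀ * N) * rB s := h1
    _ ≤ (rB s * hs N) * rB s := mul_le_mul_of_nonneg_right h2 hB.le
    _ = _ := by ring

/-- Left translations act in a Lipschitz way on `N*`. -/
theorem hs_NS_left (s g g' : G3) :
    hs (NS (s * g) - NS (s * g')) ≤ 4 * (rA s * rB s) ^ 2 * hs (NS g - NS g') := by
  set M := (rm s⁻¹)ᵀ * NS g * rm s⁻¹ with hM
  set a := tw s (NS g) with ha
  set a' := tw s (NS g') with ha'
  have hA := rA_pos s
  have ha1 : (rA s)⁻¹ ≤ a := tw_NS_ge s g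
  have ha2 : (rA s)⁻¹ ≤ a' := tw_NS_ge s g'
  have hinv : 0 < (rA s)⁻¹ := inv_pos.2 hA
  have apos : 0 < a := lt_of_lt_of_le hinv ha1
  have apos' : 0 < a' := lt_of_lt_of_le hinv ha2
  have e1 : NS (s * g) = a⁻¹ • M := NS_equivariant s g
  have e2 : NS (s * g') = a'⁻¹ • ((rm s⁻¹)ᵀ * NS g' * rm s⁻¹) := NS_equivariant s g'
  have e3 : NS (s * g) - NS (s * g') =
      a⁻¹ • ((rm s⁻¹)ᵀ * (NS g - NS g') * rm s⁻¹) - (a⁻¹ * (a - a')) • NS (s * g') := by
    have e4 : (rm s⁻¹)ᵀ * (NS g - NS g') * rm s⁻¹ = M - a' • NS (s * g') := by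
      rw [e2, smul_smul, mul_inv_cancel₀ apos'.ne', one_smul, Matrix.mul_sub, Matrix.sub_mul]
    rw [e4, e1, smul_sub, smul_smul, sub_sub, ← add_smul]
    congr 1
    have : a⁻¹ * a' + a⁻¹ * (a - a') = 1 := by field_simp; ring
    rw [this, one_smul]
  rw [e3]
  have h1 := hs_sub_le (a⁻¹ • ((rm s⁻¹)ᵀ * (NS g - NS g') * rm s⁻¹))
    ((a⁻¹ * (a - a')) • NS (s * g'))
  rw [hs_smul, hs_smul] at h1
  have h2 := hs_conj_le s (NS g - NS g')
  have h3 := tw_sq_le s (NS g - NS g')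
  rw [← tw_sub, ← ha, ← ha'] at h3
  have h4 := hs_NS_le (s * g')
  have h5 : a⁻¹ ^ 2 ≤ rA s ^ 2 := by
    refine pow_le_pow_left₀ (inv_pos.2 apos).le ?_ 2
    exact inv_le_of_inv_le₀ hA ha1
  have hD := hs_nonneg (NS g - NS g')
  have h6 : a⁻¹ ^ 2 * hs ((rm s⁻¹)ᵀ * (NS g - NS g') * rm s⁻¹) ≤
      rA s ^ 2 * (rB s ^ 2 * hs (NS g - NS g')) :=
    mul_le_mul h5 h2 (hs_nonneg _) (sq_nonneg _)
  have h7 : (a⁻¹ * (a - a')) ^ 2 * hs (NS (s * g')) ≤
      rA s ^ 2 * (rB s ^ 2 * hs (NS g - NS g')) := by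
    have h8 : (a⁻¹ * (a - a')) ^ 2 ≤ rA s ^ 2 * (rB s ^ 2 * hs (NS g - NS g')) := by
      rw [mul_pow]
      exact mul_le_mul h5 h3 (sq_nonneg _) (sq_nonneg _)
    calc _ ≤ (a⁻¹ * (a - a')) ^ 2 * 1 := mul_le_mul_of_nonneg_left h4 (sq_nonneg _)
      _ ≤ _ := by rw [mul_one]; exact h8
  calc _ ≤ 2 * (rA s ^ 2 * (rB s ^ 2 * hs (NS g - NS g'))) +
        2 * (rA s ^ 2 * (rB s ^ 2 * hs (NS g - NS g'))) := by linarith
    _ = _ := by ring

/-- The converse Lipschitz bound. -/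
theorem hs_NS_left' (s g g' : G3) :
    hs (NS g - NS g') ≤ 4 * (rA s * rB s) ^ 2 * hs (NS (s * g) - NS (s * g')) := by
  have h := hs_NS_left s⁻¹ (s * g) (s * g')
  rwa [inv_mul_cancel_left, inv_mul_cancel_left, rA_inv, rB_inv, mul_comm (rB s)] at h

/-- The transvection bound: mass escapes from any chart under unipotents. -/
theorem NS_transvection {i j : Fin 3} (hij : i ≠ j) (m : ℤ) (e g : G3)
    (he : (e : Matrix (Fin 3) (Fin 3) ℤ) = Matrix.transvection i j m) :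
    NS (e * g) i i * (1 + ((m : ℝ) - NS g i j / NS g i i) ^ 2) ≤ 1 := by
  set K := rm g⁻¹ with hK
  set K' := rm (e * g)⁻¹ with hK'
  have hKK : K = K' * rm e := by
    rw [hK, hK', ← rm_mul]
    congr 1
    group
  have hre : ∀ a b, rm e a b = (if a = b then 1 else 0) + (if i = a ∧ j = b then (m : ℝ) else 0) := by
    intro a b
    simp only [rm, en, he, Matrix.transvection, Matrix.add_apply, Matrix.one_apply,
      Matrix.single_apply]
    push_cast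
    rfl
  have hcol : ∀ k b, K k b = K' k b + (if j = b then (m : ℝ) * K' k i else 0) := by
    intro k b
    rw [hKK, Matrix.mul_apply]
    simp only [hre, mul_add, mul_ite, mul_one, mul_zero, Finset.sum_add_distrib,
      Finset.sum_ite_eq', Finset.mem_univ, if_true]
    congr 1
    by_cases hb : j = b
    · simp [hb, mul_comm]
    · simp [hb]
  have c1 : ∀ k, K k i = K' k i := by
    intro k
    rw [hcol k i, if_neg (Ne.symm hij), add_zero]
  have c2 : ∀ k, K k j = K' k j + (m : ℝ) * K' k i := by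
    intro k
    rw [hcol k j, if_pos rfl]
  set x := ∑ k, K k i ^ 2 with hx
  set z := ∑ k, K k i * K k j with hz
  have hx0 : 0 ≤ x := Finset.sum_nonneg fun _ _ => sq_nonneg _
  have hBg := rB_pos g
  have hBe := rB_pos (e * g)
  have d1 : NS (e * g) i i = (rB (e * g))⁻¹ * x := by
    rw [NS_diag, hx]
    congr 1
    exact Finset.sum_congr rfl fun k _ => by rw [c1 k]
  have d2 : NS g i i = (rB g)⁻¹ * x := by rw [NS_diag]
  have d3 : NS g i j = (rB g)⁻¹ * z := by rw [NS_apply]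
  have d4 : NS g i j / NS g i i = z / x := by
    rw [d2, d3, mul_div_mul_left _ _ (inv_pos.2 hBg).ne']
  rw [d1, d4]
  rcases hx0.lt_or_eq with hxp | hxe
  · have h1 : x + ∑ k, (K k j - (m : ℝ) * K k i) ^ 2 ≤ rB (e * g) := by
      have e1 : rB (e * g) = ∑ b, ∑ k, K' k b ^ 2 := by
        rw [Finset.sum_comm]; rfl
      have e2 : ∑ b ∈ ({i, j} : Finset (Fin 3)), ∑ k, K' k b ^ 2 ≤ ∑ b, ∑ k, K' k b ^ 2 :=
        Finset.sum_le_sum_of_subset_of_nonneg (Finset.subset_univ _)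
          fun _ _ _ => Finset.sum_nonneg fun _ _ => sq_nonneg _
      rw [Finset.sum_pair hij] at e2
      rw [e1]
      refine le_trans (le_of_eq ?_) e2
      congr 1
      · exact Finset.sum_congr rfl fun k _ => by rw [c1 k]
      · refine Finset.sum_congr rfl fun k _ => ?_
        rw [c1 k, c2 k]; ring
    have h2 : x * ((m : ℝ) - z / x) ^ 2 ≤ ∑ k, (K k j - (m : ℝ) * K k i) ^ 2 := by
      have e3 : ∑ k, (K k j - (m : ℝ) * K k i) ^ 2 =
          (∑ k, K k j ^ 2) - 2 * (m : ℝ) * z + (m : ℝ) ^ 2 * x := by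
        rw [hz, hx, Finset.mul_sum, Finset.mul_sum, ← Finset.sum_sub_distrib,
          ← Finset.sum_add_distrib]
        exact Finset.sum_congr rfl fun k _ => by ring
      have e4 : z ^ 2 ≤ x * ∑ k, K k j ^ 2 := by
        rw [hz, hx]
        exact Finset.sum_mul_sq_le_sq_mul_sq _ _ _
      have e5 : z ^ 2 / x ≤ ∑ k, K k j ^ 2 := by
        rw [div_le_iff₀ hxp]; linarith
      have e6 : x * ((m : ℝ) - z / x) ^ 2 = z ^ 2 / x - 2 * (m : ℝ) * z + (m : ℝ) ^ 2 * x := by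
        field_simp
        ring
      rw [e3, e6]; linarith
    have h3 : x * (1 + ((m : ℝ) - z / x) ^ 2) ≤ rB (e * g) := by
      rw [mul_add, mul_one]; linarith
    rw [mul_assoc, inv_mul_le_iff₀ hBe, mul_one]
    exact h3
  · rw [← hxe]
    simp

end Vale.Agent.P092.H732
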